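import Vale.Agent.P050.H546.GBase
import Vale.Agent.P050.V3.Spec

/-!
[BASE3]: two ladders from a common rung, with a walk of length `L` between their ends.
-/

set_option linter.unusedSectionVars false

namespace Vale.Agent.P050.V3.H964

open Finset Vale.Agent.P050.Cart Vale.Agent.P050.Join Vale.Agent.P050.M18 Vale.Agent.P050.H546
open Vale.Agent.P050.V3

/-- the law of the centre rung `R`, of `a = (s_{m-1}, v)` and of `b = (s_1, u)` -/
structure H1 {U Ω : Type} [Fintype U] [DecidableEq U] [Fintype Ω] (Q : U × U → ℝ) (n L : ℕ)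
    (F1 F2 : (U × U) × (U × U) → ℝ) (P : Ω → ℝ) (R a b : Ω → U × U) : Prop where
  nn : ∀ ω, 0 ≤ P ω
  tot : ∑ ω, P ω = 1
  la : mar P (fun ω => (R ω, a ω)) = F1
  lb : mar P (fun ω => (R ω, b ω)) = F2
  lu : ∀ r y z, mar P (fun ω => ((R ω, (a ω).2), (b ω).2)) ((r, y), z) =
    mar (PP Q n) (fun x => (x.1, x.2.2)) (r, y) * zp (nb Q) L y z
  lvu : mar P (fun ω => ((a ω).2, (b ω).2)) = EE Q L
  eA : Cart.ent P (fun ω => ((R ω, a ω), b ω)) =
    Cart.ent F1 (fun x => x) + hh Q L - aQ Q + Cart.ent F2 (fun x => x) - hB Q (n + L)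
  eB : Cart.ent P (fun ω => ((R ω, (a ω).2), b ω)) =
    hB Q n + hh Q L - aQ Q + Cart.ent F2 (fun x => x) - hB Q (n + L)
  eC : Cart.ent P (fun ω => (a ω, (b ω).2)) = hQ Q + hh Q L - aQ Q

section one

variable {U : Type} [Fintype U] [DecidableEq U] {Q : U × U → ℝ}
  {F1 F2 : (U × U) × (U × U) → ℝ}

/-- the first ladder and the end of a walk of length `L` -/
noncomputable def Kc (Q : U × U → ℝ) (F1 : (U × U) × (U × U) → ℝ) (L : ℕ) :
    ((U × U) × (U × U)) × U → ℝ :=
  att F1 (fun x => x.2.2) (zp (nb Q) L)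

/-- the second ladder -/
noncomputable def Kd (Q : U × U → ℝ) (F1 F2 : (U × U) × (U × U) → ℝ) (L : ℕ) :
    (((U × U) × (U × U)) × U) × U → ℝ :=
  xat (Kc Q F1 L) (fun x => (x.1.1, x.2)) F2 (fun y => (y.1, y.2.2)) (fun y => y.2.1)

theorem F_v (hE : Edge Q) (l1 : Lab Q F1) : mar F1 (fun x => x.2.2) = mm Q := by
  rw [l1.mar_edge hE fun e => e.2, hE.mar_snd_Q]

theorem F_one (hE : Edge Q) (l1 : Lab Q F1) (L : ℕ) (x : (U × U) × (U × U)) (hx : F1 x ≠ 0) :
    ∑ b, zp (nb Q) L x.2.2 b = 1 :=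
  kp_one hE L (hE.mm_ne (x := x.2.1) (y := x.2.2) (l1.ne_zero hE hx)).2

theorem Kc_nn (hE : Edge Q) (l1 : Lab Q F1) (L : ℕ) (x) : 0 ≤ Kc Q F1 L x :=
  att_nonneg l1.nn (kp_nn hE L) x

theorem Kc_tot (hE : Edge Q) (l1 : Lab Q F1) (L : ℕ) : ∑ x, Kc Q F1 L x = 1 :=
  att_total (l1.tot hE) (F_one hE l1 L)

theorem Kc_fst (hE : Edge Q) (l1 : Lab Q F1) (L : ℕ) {α : Type} (g : (U × U) × (U × U) → α) :
    mar (Kc Q F1 L) (fun x => g x.1) = mar F1 g := mar_att_fst (F_one hE l1 L) g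

theorem Kc_vu (hE : Edge Q) (l1 : Lab Q F1) (L : ℕ) :
    mar (Kc Q F1 L) (fun x => (x.1.2.2, x.2)) = EE Q L := by
  funext ⟨y, z⟩
  have h : mar (Kc Q F1 L) (fun x => (x.1.2.2, x.2)) (y, z) =
      mar F1 (fun x => x.2.2) y * zp (nb Q) L y z :=
    mar_att (P := F1) (f := fun x => x.2.2) (K := zp (nb Q) L) (fun x => x.2.2)
      (fun y => y) (fun _ => rfl) y z
  rw [h, F_v hE l1]
  rfl

theorem Kc_ent (hE : Edge Q) (l1 : Lab Q F1) (L : ℕ) {α : Type} [Fintype α]
    (g : (U × U) × (U × U) → α) (k : α → U) (hk : ∀ x, x.2.2 = k (g x)) :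
    ent (Kc Q F1 L) (fun x => (g x.1, x.2)) = ent F1 g + (hh Q L - aQ Q) := by
  have h1 := ent_att (P := F1) (f := fun x => x.2.2) (K := zp (nb Q) L) l1.nn
    (kp_nn hE L) (F_one hE l1 L) g k hk
  have e1 : ent (att F1 (fun x => x.2.2) (zp (nb Q) L)) (fun x => (x.1.2.2, x.2)) =
      hh Q L := by
    unfold hh
    refine ent_law fun a => ?_
    have := congrFun (Kc_vu hE l1 L) a
    rw [mar_id]
    exact this
  have e2 : ent F1 (fun x => x.2.2) = aQ Q := by
    unfold aQ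
    refine ent_law fun a => ?_
    rw [F_v hE l1, mar_id]
  have e3 : ent (Kc Q F1 L) (fun x => (g x.1, x.2)) =
    ent (att F1 (fun x => x.2.2) (zp (nb Q) L)) (fun x => (g x.1, x.2)) := rfl
  rw [e1, e2] at h1
  rw [e3]
  linarith

theorem Kc_hm (hE : Edge Q) (n L : ℕ)
    (w1 : mar F1 (fun x => (x.1, x.2.2)) = mar (PP Q n) (fun x => (x.1, x.2.2)))
    (w2 : mar F2 (fun x => (x.1, x.2.2)) = mar (PP Q (n + L)) (fun x => (x.1, x.2.2))) :
    mar (Kc Q F1 L) (fun x => (x.1.1, x.2)) = mar F2 (fun y => (y.1, y.2.2)) := by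
  rw [w2]
  funext ⟨R, z⟩
  have h1 := att_mar2 F1 (fun x => x.2.2) (zp (nb Q) L) (fun x => x.1) R z
  have h2 : mar (Kc Q F1 L) (fun x => (x.1.1, x.2)) (R, z) =
      ∑ d, mar F1 (fun x => (x.1, x.2.2)) (R, d) * zp (nb Q) L d z := h1
  rw [PPL hE, h2, w1]

variable (hE : Edge Q) (n L : ℕ) (l1 : Lab Q F1) (l2 : Lab Q F2)
  (w1 : mar F1 (fun x => (x.1, x.2.2)) = mar (PP Q n) (fun x => (x.1, x.2.2)))
  (w2 : mar F2 (fun x => (x.1, x.2.2)) = mar (PP Q (n + L)) (fun x => (x.1, x.2.2)))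

include hE l1 l2 w1 w2

theorem Kd_nn (x) : 0 ≤ Kd Q F1 F2 L x := xat_nonneg _ (Kc_nn hE l1 L) l2.nn x

theorem Kd_tot : ∑ x, Kd Q F1 F2 L x = 1 :=
  xat_total _ (Kc_nn hE l1 L) (Kc_hm hE n L w1 w2) (Kc_tot hE l1 L)

theorem Kd_fst {α : Type} (g : ((U × U) × (U × U)) × U → α) :
    mar (Kd Q F1 F2 L) (fun x => g x.1) = mar (Kc Q F1 L) g :=
  xat_fst _ (Kc_nn hE l1 L) (Kc_hm hE n L w1 w2) g

theorem Kd_ent_fst {α : Type} [Fintype α] (g : ((U × U) × (U × U)) × U → α) :
    ent (Kd Q F1 F2 L) (fun x => g x.1) = ent (Kc Q F1 L) g :=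
  xat_ent_fst _ (Kc_nn hE l1 L) (Kc_hm hE n L w1 w2) g

theorem Kd_ent {α : Type} [Fintype α] (g : ((U × U) × (U × U)) × U → α)
    (k : α → (U × U) × U) (hk : ∀ x, (x.1.1, x.2) = k (g x)) :
    ent (Kd Q F1 F2 L) (fun x => (g x.1, x.2)) =
      ent (Kc Q F1 L) g + (Cart.ent F2 (fun x => x) - hB Q (n + L)) := by
  have h1 := xat_ent (P := Kc Q F1 L) (c := fun x => (x.1.1, x.2)) (P' := F2)
    (c' := fun y => (y.1, y.2.2)) (fun y => y.2.1) (Kc_nn hE l1 L) l2.nn
    (Kc_hm hE n L w1 w2) g k hk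
  have h2 : ent F2 (fun y => ((y.1, y.2.2), y.2.1)) = Cart.ent F2 (fun x => x) :=
    ent_same _ fun x y => by
      simp only [Prod.ext_iff]
      tauto
  have h3 : hB Q (n + L) = ent F2 (fun x => (x.1, x.2.2)) := by
    have : hB Q (n + L) = ent (PP Q (n + L)) (fun x => (x.1, x.2.2)) := rfl
    rw [this]
    refine ent_law fun c => ?_
    rw [w2]
  unfold Kd
  rw [h1, h2, h3]

theorem Kd_law : mar (Kd Q F1 F2 L) (fun x => ((x.1.1.1, x.1.2), x.2)) =
    mar F2 (fun y => ((y.1, y.2.2), y.2.1)) := by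
  have h := xat_law (P := Kc Q F1 L) (c := fun x => (x.1.1, x.2)) (P' := F2)
    (c' := fun y => (y.1, y.2.2)) (fun y => y.2.1) l2.nn (Kc_hm hE n L w1 w2)
  unfold Kd
  exact h

theorem g1 : H1 Q n L F1 F2 (Kd Q F1 F2 L) (fun x => x.1.1.1) (fun x => x.1.1.2)
    (fun x => (x.2, x.1.2)) where
  nn := Kd_nn hE n L l1 l2 w1 w2
  tot := Kd_tot hE n L l1 l2 w1 w2
  la := by
    have h1 := Kd_fst hE n L l1 l2 w1 w2 (fun x => (x.1.1, x.1.2))
    have h2 := Kc_fst hE l1 L (fun x => (x.1, x.2))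
    refine h1.trans (h2.trans ?_)
    funext a
    exact mar_id _ a
  lb := by
    have h1 : mar (Kd Q F1 F2 L) (fun x => (x.1.1.1, (x.2, x.1.2))) =
        mar (mar (Kd Q F1 F2 L) (fun x => ((x.1.1.1, x.1.2), x.2)))
          (fun y => (y.1.1, (y.2, y.1.2))) := by
      funext a
      rw [mar_mar]
    rw [h1, Kd_law hE n L l1 l2 w1 w2]
    funext a
    rw [mar_mar]
    exact mar_id _ a
  lu := by
    intro r y z
    have h1 := congrFun (Kd_fst hE n L l1 l2 w1 w2 (fun x => ((x.1.1, x.1.2.2), x.2))) ((r, y), z)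
    have h2 := mar_att (P := F1) (f := fun x => x.2.2) (K := zp (nb Q) L)
      (fun x => (x.1, x.2.2)) (fun y => y.2) (fun _ => rfl) (r, y) z
    have h3 := h1.trans h2
    rw [w1] at h3
    exact h3
  lvu := (Kd_fst hE n L l1 l2 w1 w2 (fun x => (x.1.2.2, x.2))).trans (Kc_vu hE l1 L)
  eA := by
    have h1 := Kd_ent hE n L l1 l2 w1 w2 (fun x => (x.1, x.2)) (fun y => (y.1.1, y.2))
      (fun _ => rfl)
    have h2 := Kc_ent hE l1 L (fun x => x) (fun x => x.2.2) (fun _ => rfl)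
    have h3 : ent (Kd Q F1 F2 L) (fun x => ((x.1.1.1, x.1.1.2), (x.2, x.1.2))) =
        ent (Kd Q F1 F2 L) (fun x => ((x.1.1, x.1.2), x.2)) := ent_same _ fun x y => by
      simp only [Prod.ext_iff]
      tauto
    rw [h3, h1, h2]
    ring
  eB := by
    have h1 := Kd_ent hE n L l1 l2 w1 w2 (fun x => ((x.1.1, x.1.2.2), x.2))
      (fun y => (y.1.1, y.2)) (fun _ => rfl)
    have h2 := Kc_ent hE l1 L (fun x => (x.1, x.2.2)) (fun y => y.2) (fun _ => rfl)
    have h3 : ent (Kd Q F1 F2 L) (fun x => ((x.1.1.1, x.1.1.2.2), (x.2, x.1.2))) =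
        ent (Kd Q F1 F2 L) (fun x => (((x.1.1.1, x.1.1.2.2), x.1.2), x.2)) :=
      ent_same _ fun x y => by
        simp only [Prod.ext_iff]
        tauto
    have h4 : hB Q n = ent F1 (fun x => (x.1, x.2.2)) := by
      have : hB Q n = ent (PP Q n) (fun x => (x.1, x.2.2)) := rfl
      rw [this]
      refine ent_law fun c => ?_
      rw [w1]
    rw [h3, h1, h2, h4]
    ring
  eC := by
    have h1 := Kd_ent_fst hE n L l1 l2 w1 w2 (fun x => (x.1.2, x.2))
    have h2 := Kc_ent hE l1 L (fun x => x.2) (fun y => y.2) (fun _ => rfl)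
    have h3 : ent F1 (fun x => x.2) = hQ Q := l1.ent_edge hE fun e => e
    refine h1.trans (h2.trans ?_)
    rw [h3]
    ring

end one

section two

variable {U Ω : Type} [Fintype U] [DecidableEq U] [Fintype Ω] {Q : U × U → ℝ} {P : Ω → ℝ}
  {R a b : Ω → U × U} {F1 F2 : (U × U) × (U × U) → ℝ}

variable (hE : Edge Q) {n l : ℕ} (h : H1 Q n (l + 1) F1 F2 P R a b)

include hE h

theorem khmd : mar P (fun ω => ((b ω).2, (a ω).2)) = mar (FF Q l) (fun x => (x.1.1, x.2)) := by
  rw [FF_0z hE, EE_swap hE h.lvu]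

theorem kHe_nn (x) : 0 ≤ He Q l P a b x := xat_nonneg _ h.nn (FF_nn hE l) x

theorem kHe_tot : ∑ x, He Q l P a b x = 1 := xat_total _ h.nn (khmd hE h) h.tot

theorem kHe_fst {α : Type} (g : Ω → α) : mar (He Q l P a b) (fun x => g x.1) = mar P g :=
  xat_fst _ h.nn (khmd hE h) g

theorem khme : mar (He Q l P a b) (fun x => ((a x.1).2, (b x.1).2)) =
    mar (FF Q l) (fun x => (x.1.1, x.2)) := by
  rw [FF_0z hE, kHe_fst hE h (fun ω => ((a ω).2, (b ω).2)), h.lvu]

theorem kHf_nn (x) : 0 ≤ Hf Q l P a b x := xat_nonneg _ (kHe_nn hE h) (FF_nn hE l) x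

theorem kHf_tot : ∑ x, Hf Q l P a b x = 1 := xat_total _ (kHe_nn hE h) (khme hE h) (kHe_tot hE h)

theorem kHf_fst {α : Type} (g : Ω × U → α) :
    mar (Hf Q l P a b) (fun x => g x.1) = mar (He Q l P a b) g :=
  xat_fst _ (kHe_nn hE h) (khme hE h) g

theorem kHf_fst2 {α : Type} (g : Ω → α) :
    mar (Hf Q l P a b) (fun x => g x.1.1) = mar P g :=
  (kHf_fst hE h (fun x => g x.1)).trans (kHe_fst hE h g)

theorem kHf_ent2 {α : Type} [Fintype α] (g : Ω → α) :
    ent (Hf Q l P a b) (fun x => g x.1.1) = ent P g := by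
  unfold ent
  rw [kHf_fst2 hE h g]

theorem kHe_law : mar (He Q l P a b) (fun x => (((b x.1).2, (a x.1).2), x.2)) =
    mar (FF Q l) (fun x => ((x.1.1, x.2), x.1.2)) := by
  have h1 := xat_law (P := P) (c := fun ω => ((b ω).2, (a ω).2)) (P' := FF Q l)
    (c' := fun x => (x.1.1, x.2)) (fun x => x.1.2) (FF_nn hE l) (khmd hE h)
  exact h1

theorem kHf_law : mar (Hf Q l P a b) (fun x => (((a x.1.1).2, (b x.1.1).2), x.2)) =
    mar (FF Q l) (fun x => ((x.1.1, x.2), x.1.2)) := by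
  have h1 := xat_law (P := He Q l P a b) (c := fun x => ((a x.1).2, (b x.1).2)) (P' := FF Q l)
    (c' := fun x => (x.1.1, x.2)) (fun x => x.1.2) (FF_nn hE l) (khme hE h)
  exact h1

theorem kHe_ent {α : Type} [Fintype α] (g : Ω → α) (k : α → U × U)
    (hk : ∀ ω, ((b ω).2, (a ω).2) = k (g ω)) :
    ent (He Q l P a b) (fun x => (g x.1, x.2)) =
      ent P g + (hQ Q + hh Q l - aQ Q - hh Q (l + 1)) := by
  have h1 := xat_ent (P := P) (c := fun ω => ((b ω).2, (a ω).2)) (P' := FF Q l)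
    (c' := fun x => (x.1.1, x.2)) (fun x => x.1.2) h.nn (FF_nn hE l) (khmd hE h) g k hk
  rw [FF_ent hE, FF_ent0 hE] at h1
  exact h1

theorem kHf_ent {α : Type} [Fintype α] (g : Ω × U → α) (k : α → U × U)
    (hk : ∀ x, ((a x.1).2, (b x.1).2) = k (g x)) :
    ent (Hf Q l P a b) (fun x => (g x.1, x.2)) =
      ent (He Q l P a b) g + (hQ Q + hh Q l - aQ Q - hh Q (l + 1)) := by
  have h1 := xat_ent (P := He Q l P a b) (c := fun x => ((a x.1).2, (b x.1).2)) (P' := FF Q l)
    (c' := fun x => (x.1.1, x.2)) (fun x => x.1.2) (kHe_nn hE h) (FF_nn hE l) (khme hE h) g k hk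
  rw [FF_ent hE, FF_ent0 hE] at h1
  exact h1

/-- the law of `(R, e)` is that of a chain of length `n + 1` -/
theorem kHf_Re : mar (Hf Q l P a b) (fun x => (R x.1.1, x.2)) =
    mar (PP Q (n + 1)) (fun x => (x.1, x.2.2)) := by
  funext ⟨r, y⟩
  have h1 := att_mar2 (He Q l P a b) (fun x => ((a x.1).2, (b x.1).2))
    (ker (FF Q l) (fun x => (x.1.1, x.2)) (fun x => x.1.2)) (fun x => R x.1) r y
  have h2 : mar (Hf Q l P a b) (fun x => (R x.1.1, x.2)) (r, y) =
      ∑ d : U × U, mar (He Q l P a b) (fun x => (R x.1, ((a x.1).2, (b x.1).2))) (r, d) *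
        ker (FF Q l) (fun x => (x.1.1, x.2)) (fun x => x.1.2) d y := h1
  have e1 : PP Q (n + 1) = nx Q (PP Q n) := rfl
  rw [h2, e1, (PP_lab hE n).nx_fresh hE, Fintype.sum_prod_type]
  refine Finset.sum_congr rfl fun v _ => ?_
  have h3 : ∀ u, mar (He Q l P a b) (fun x => (R x.1, ((a x.1).2, (b x.1).2))) (r, (v, u)) =
      mar (PP Q n) (fun x => (x.1, x.2.2)) (r, v) * zp (nb Q) (l + 1) v u := by
    intro u
    have h4 := congrFun (kHe_fst hE h (fun ω => (R ω, ((a ω).2, (b ω).2)))) (r, (v, u))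
    have h5 : mar P (fun ω => (R ω, ((a ω).2, (b ω).2))) (r, (v, u)) =
        mar P (fun ω => ((R ω, (a ω).2), (b ω).2)) ((r, v), u) :=
      mar_inj P (fun ω => ((R ω, (a ω).2), (b ω).2))
        (e := fun y : ((U × U) × U) × U => (y.1.1, (y.1.2, y.2))) (fun y z hyz => by
          simp only [Prod.mk.injEq] at hyz
          exact Prod.ext (Prod.ext hyz.1 hyz.2.1) hyz.2.2) ((r, v), u)
    rw [← h.lu, ← h5]
    exact h4
  have h6 : ∀ u, zp (nb Q) (l + 1) v u *
      ker (FF Q l) (fun x => (x.1.1, x.2)) (fun x => x.1.2) (v, u) y =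
        nb Q v y * zp (nb Q) l y u := by
    intro u
    unfold ker
    rw [FF_0z1 hE, FF_0z hE]
    show zp (nb Q) (l + 1) v u * (Q (v, y) * zp (nb Q) l y u /
      (mm Q v * zp (nb Q) (l + 1) v u)) = _
    by_cases hz : zp (nb Q) (l + 1) v u = 0
    · rw [hz, zero_mul]
      have h7 := hz
      rw [zp_left] at h7
      exact ((Finset.sum_eq_zero_iff_of_nonneg fun c _ =>
        mul_nonneg (hE.nb_nn _ _) (kp_nn hE _ _ _)).1 h7 y (mem_univ y)).symm
    · show _ = Q (v, y) / mm Q v * zp (nb Q) l y u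
      by_cases hv : mm Q v = 0
      · rw [hv]
        simp
      · field_simp
  have h8 : ∀ u, mar (He Q l P a b) (fun x => (R x.1, ((a x.1).2, (b x.1).2))) (r, (v, u)) *
      ker (FF Q l) (fun x => (x.1.1, x.2)) (fun x => x.1.2) (v, u) y =
        mar (PP Q n) (fun x => (x.1, x.2.2)) (r, v) * nb Q v y * zp (nb Q) l y u := by
    intro u
    rw [h3, mul_assoc, h6]
    ring
  rw [Finset.sum_congr rfl fun u _ => h8 u, ← Finset.mul_sum]
  by_cases hy : mm Q y = 0
  · rw [nb_zero hE hy]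
    ring
  · rw [kp_one hE l hy, mul_one]

theorem g3 (l1 : Lab Q F1) (l2 : Lab Q F2)
    (w1 : mar F1 (fun x => (x.1, x.2.2)) = mar (PP Q n) (fun x => (x.1, x.2.2))) :
    G3 Q n (l + 1) F1 F2 (Hf Q l P a b) (fun x => R x.1.1) (fun x => a x.1.1)
    (fun x => b x.1.1) (fun x => x.1.2) (fun x => x.2) where
  nn := kHf_nn hE h
  tot := kHf_tot hE h
  la := by rw [← h.la]; exact kHf_fst2 hE h (fun ω => (R ω, a ω))
  lb := by rw [← h.lb]; exact kHf_fst2 hE h (fun ω => (R ω, b ω))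
  sud := by
    intro x hx
    obtain ⟨h1, -⟩ := xat_ne_zero _ (kHe_nn hE h) (FF_nn hE l) hx
    obtain ⟨-, ω, h2, h3, h4⟩ := xat_ne_zero _ h.nn (FF_nn hE l) h1
    have h5 := (left_ne_zero_of_mul h2 : Q ω.1 ≠ 0)
    simp only [Prod.mk.injEq] at h3
    have h6 : ω.1 = ((b x.1.1).2, x.1.2) := Prod.ext h3.1 h4
    rw [h6] at h5
    exact h5
  sve := by
    intro x hx
    obtain ⟨-, ω, h2, h3, h4⟩ := xat_ne_zero _ (kHe_nn hE h) (FF_nn hE l) hx
    have h5 := (left_ne_zero_of_mul h2 : Q ω.1 ≠ 0)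
    simp only [Prod.mk.injEq] at h3
    have h6 : ω.1 = ((a x.1.1).2, x.2) := Prod.ext h3.1 h4
    rw [h6] at h5
    exact h5
  lue := by
    refine EE_swap hE ?_
    have h1 : mar (Hf Q l P a b) (fun x => (x.2, (b x.1.1).2)) =
        mar (mar (Hf Q l P a b) (fun x => (((a x.1.1).2, (b x.1.1).2), x.2)))
          (fun y => (y.2, y.1.2)) := by
      funext a
      rw [mar_mar]
    rw [h1, kHf_law hE h]
    funext c
    rw [mar_mar]
    exact congrFun (FF_1z hE l) c
  ldv := by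
    have h0 := kHf_fst hE h (fun x => (x.2, (a x.1).2))
    refine h0.trans ?_
    have h1 : mar (He Q l P a b) (fun x => (x.2, (a x.1).2)) =
        mar (mar (He Q l P a b) (fun x => (((b x.1).2, (a x.1).2), x.2)))
          (fun y => (y.2, y.1.2)) := by
      funext a
      rw [mar_mar]
    rw [h1, kHe_law hE h]
    funext c
    rw [mar_mar]
    exact congrFun (FF_1z hE l) c
  ent := by
    have h1 := kHf_ent hE h (fun x => (((R x.1, a x.1), b x.1), x.2))
      (fun y => (y.1.1.2.2, y.1.2.2)) (fun _ => rfl)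
    have h2 := kHe_ent hE h (fun ω => ((R ω, a ω), b ω)) (fun y => (y.2.2, y.1.2.2))
      (fun _ => rfl)
    have h3 : ent (Hf Q l P a b) (fun x => (R x.1.1, a x.1.1, b x.1.1, x.1.2, x.2)) =
        ent (Hf Q l P a b) (fun x => ((((R x.1.1, a x.1.1), b x.1.1), x.1.2), x.2)) :=
      ent_same _ fun x y => by
        simp only [Prod.mk.injEq]
        tauto
    rw [h3, h1, h2, h.eA]
    have e : l + 1 - 1 = l := rfl
    rw [e]
    linarith
  e1 := by
    -- the entropy of `(R, v, b, d, e)`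
    have h1 := kHf_ent hE h (fun x => (((R x.1, (a x.1).2), b x.1), x.2))
      (fun y => (y.1.1.2, y.1.2.2)) (fun _ => rfl)
    have h2 := kHe_ent hE h (fun ω => ((R ω, (a ω).2), b ω)) (fun y => (y.2.2, y.1.2))
      (fun _ => rfl)
    rw [h2, h.eB] at h1
    -- remove `v`
    have s1 := subm (kHf_nn hE h) (A := fun x => (((R x.1.1, b x.1.1), x.1.2), x.2))
      (B := fun x => ((R x.1.1, (a x.1.1).2), x.2))
      (C := fun x => ((((R x.1.1, (a x.1.1).2), b x.1.1), x.1.2), x.2))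
      (D := fun x => (R x.1.1, x.2)) (fun x y => by
        simp only [Prod.mk.injEq]
        tauto) (fun x y => by
        simp only [Prod.mk.injEq]
        tauto) (fun x y => by
        simp only [Prod.mk.injEq]
        tauto)
    -- remove `R`
    have s2 := subm (kHf_nn hE h) (A := fun x => (((b x.1.1).1, x.1.2, x.2), (b x.1.1).2))
      (B := fun x => (R x.1.1, b x.1.1))
      (C := fun x => (((R x.1.1, b x.1.1), x.1.2), x.2))
      (D := fun x => b x.1.1) (fun x y => by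
        simp only [Prod.ext_iff]
        tauto) (fun x y => by
        simp only [Prod.ext_iff]
        tauto) (fun x y => by
        simp only [Prod.ext_iff]
        tauto)
    -- the entropy of `(R, v, e)`
    have s3 := subm (kHf_nn hE h) (A := fun x => (R x.1.1, (a x.1.1).2))
      (B := fun x => ((a x.1.1).2, x.2))
      (C := fun x => ((R x.1.1, (a x.1.1).2), x.2))
      (D := fun x => (a x.1.1).2) (fun x y => by
        simp only [Prod.mk.injEq]
        tauto) (fun x y => by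
        simp only [Prod.mk.injEq]
        tauto) (fun x y => by
        simp only [Prod.mk.injEq]
        tauto)
    have t1 : ent (Hf Q l P a b) (fun x => (R x.1.1, x.2)) = hB Q (n + 1) := by
      unfold hB
      refine ent_law fun c => ?_
      rw [kHf_Re hE h]
    have t2 : ent (Hf Q l P a b) (fun x => (R x.1.1, b x.1.1)) = Cart.ent F2 (fun x => x) := by
      have := kHf_ent2 hE h (fun ω => (R ω, b ω))
      rw [this]
      refine ent_law fun c => ?_
      rw [h.lb, mar_id]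
    have t3 : ent (Hf Q l P a b) (fun x => b x.1.1) = hQ Q := by
      have := kHf_ent2 hE h (fun ω => b ω)
      rw [this]
      have h5 : ent P (fun ω => b ω) = ent (mar P (fun ω => (R ω, b ω))) (fun y => y.2) := by
        rw [ent_mar]
      rw [h5, h.lb]
      exact l2.ent_edge hE fun e => e
    have t4 : ent (Hf Q l P a b) (fun x => (R x.1.1, (a x.1.1).2)) = hB Q n := by
      have := kHf_ent2 hE h (fun ω => (R ω, (a ω).2))
      rw [this]
      have h5 : ent P (fun ω => (R ω, (a ω).2)) =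
          ent (mar P (fun ω => (R ω, a ω))) (fun y => (y.1, y.2.2)) := by
        rw [ent_mar]
      rw [h5, h.la]
      have h6 : hB Q n = ent (PP Q n) (fun x => (x.1, x.2.2)) := rfl
      rw [h6]
      refine ent_law fun c => ?_
      rw [w1]
    have t5 : ent (Hf Q l P a b) (fun x => (a x.1.1).2) = aQ Q := by
      have := kHf_ent2 hE h (fun ω => (a ω).2)
      rw [this]
      have h5 : ent P (fun ω => (a ω).2) =
          ent (mar P (fun ω => (R ω, a ω))) (fun y => y.2.2) := by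
        rw [ent_mar]
      rw [h5, h.la]
      unfold aQ
      refine ent_law fun c => ?_
      rw [F_v hE l1, mar_id]
    have t6 : ent (Hf Q l P a b) (fun x => ((a x.1.1).2, x.2)) = hQ Q := by
      have h5 : ent (Hf Q l P a b) (fun x => ((a x.1.1).2, x.2)) =
          ent (mar (Hf Q l P a b) (fun x => (((a x.1.1).2, (b x.1.1).2), x.2)))
            (fun y => (y.1.1, y.2)) := by
        rw [ent_mar]
      rw [h5, kHf_law hE h, ent_mar]
      have h6 : ent (FF Q l) (fun x => (x.1.1, x.1.2)) = hQ Q := by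
        have h7 := FF_01 hE l
        unfold hQ
        refine ent_law fun c => ?_
        rw [mar_id]
        exact congrFun h7 c
      exact h6
    rw [t1] at s1
    rw [t2, t3] at s2
    rw [t4, t6, t5] at s3
    have e : l + 1 - 1 = l := rfl
    rw [e]
    rw [h1] at s1
    linarith
  e2 := by
    have h1 := kHf_ent hE h (fun x => ((a x.1, (b x.1).2), x.2))
      (fun y => (y.1.1.2, y.1.2)) (fun _ => rfl)
    have h2 := kHe_ent hE h (fun ω => (a ω, (b ω).2)) (fun y => (y.2, y.1.2))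
      (fun _ => rfl)
    rw [h2, h.eC] at h1
    have s1 := subm (kHf_nn hE h) (A := fun x => (((a x.1.1).1, x.2, x.1.2), (a x.1.1).2))
      (B := fun x => (((b x.1.1).2, (a x.1.1).2), x.1.2))
      (C := fun x => (((a x.1.1, (b x.1.1).2), x.1.2), x.2))
      (D := fun x => (x.1.2, (a x.1.1).2)) (fun x y => by
        simp only [Prod.ext_iff]
        tauto) (fun x y => by
        simp only [Prod.mk.injEq]
        tauto) (fun x y => by
        simp only [Prod.mk.injEq]
        tauto)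
    have t1 : ent (Hf Q l P a b) (fun x => (((b x.1.1).2, (a x.1.1).2), x.1.2)) =
        hQ Q + hh Q l - aQ Q := by
      have h3 : ent (Hf Q l P a b) (fun x => (((b x.1.1).2, (a x.1.1).2), x.1.2)) =
          ent (He Q l P a b) (fun x => (((b x.1).2, (a x.1).2), x.2)) := by
        unfold ent
        rw [kHf_fst hE h (fun x => (((b x.1).2, (a x.1).2), x.2))]
      rw [h3, ← FF_ent hE l]
      refine ent_law fun c => ?_
      rw [kHe_law hE h]
    have t2 : ent (Hf Q l P a b) (fun x => (x.1.2, (a x.1.1).2)) = hh Q l := by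
      have h3 : ent (Hf Q l P a b) (fun x => (x.1.2, (a x.1.1).2)) =
          ent (He Q l P a b) (fun x => (x.2, (a x.1).2)) := by
        unfold ent
        rw [kHf_fst hE h (fun x => (x.2, (a x.1).2))]
      have h4 : ent (He Q l P a b) (fun x => (x.2, (a x.1).2)) =
          ent (mar (He Q l P a b) (fun x => (((b x.1).2, (a x.1).2), x.2)))
            (fun y => (y.2, y.1.2)) := by
        rw [ent_mar]
      rw [h3, h4, kHe_law hE h, ent_mar]
      unfold hh
      refine ent_law fun c => ?_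
      rw [mar_id]
      exact congrFun (FF_1z hE l) c
    rw [t1, t2, h1] at s1
    have e : l + 1 - 1 = l := rfl
    rw [e]
    linarith

end two

/-- **[BASE3]** -/
theorem base3 : Base3Stmt := by
  intro U _ _ Q hE n L F1 F2 hL l1 l2 w1 w2
  obtain ⟨l, rfl⟩ : ∃ l, L = l + 1 := ⟨L - 1, by omega⟩
  exact ⟨_, inferInstance, _, _, _, _, _, _,
    g3 hE (g1 hE n (l + 1) l1 l2 w1 w2) l1 l2 w1⟩

end Vale.Agent.P050.V3.H964
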